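import Vale.Agent.Lib.P356.helper23.Defs

/-!
Square grid geometry: the sites of `A` lying in a set of diameter at most `R` that leaves `A`
number at most the square of `2 R + 1` times the number of boundary edges of `A`.
-/

namespace Vale.Agent.Lib.P356.H36

open Matrix
open Vale.Agent.Lib.P356

theorem dist_def (n m : ℕ) : Nat.dist n m = n - m + (m - n) := rfl

theorem l1dist_def {L : ℕ} (x y : Fin L × Fin L) :
    l1dist x y = Nat.dist x.1.val y.1.val + Nat.dist x.2.val y.2.val := rfl

theorem l1dist_self {L : ℕ} (x : Fin L × Fin L) : l1dist x x = 0 := by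
  rw [l1dist_def]
  simp only [dist_def]
  omega

theorem l1dist_triangle {L : ℕ} (x y z : Fin L × Fin L) :
    l1dist x z ≤ l1dist x y + l1dist y z := by
  rw [l1dist_def, l1dist_def, l1dist_def]
  simp only [dist_def]
  omega

theorem eq_of_l1dist_eq_zero {L : ℕ} {x y : Fin L × Fin L} (h : l1dist x y = 0) : x = y := by
  rw [l1dist_def] at h
  simp only [dist_def] at h
  exact Prod.ext (Fin.ext (by omega)) (Fin.ext (by omega))

/-- One step from `x` towards `y` in the grid. -/
theorem exists_step {L : ℕ} (x y : Fin L × Fin L) (hxy : x ≠ y) :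
    ∃ x' : Fin L × Fin L, l1dist x x' = 1 ∧ l1dist x' y + 1 = l1dist x y := by
  have hy1 := y.1.isLt
  have hy2 := y.2.isLt
  have hx1 := x.1.isLt
  have hx2 := x.2.isLt
  by_cases h1 : x.1.val = y.1.val
  · have h2 : x.2.val ≠ y.2.val := fun h2 => hxy (Prod.ext (Fin.ext h1) (Fin.ext h2))
    rcases Nat.lt_or_gt_of_ne h2 with hlt | hgt
    · refine ⟨(x.1, (⟨x.2.val + 1, by omega⟩ : Fin L)), ?_, ?_⟩
      · show Nat.dist x.1.val x.1.val + Nat.dist x.2.val (x.2.val + 1) = 1
        simp only [dist_def]
        omega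
      · show Nat.dist x.1.val y.1.val + Nat.dist (x.2.val + 1) y.2.val + 1
          = Nat.dist x.1.val y.1.val + Nat.dist x.2.val y.2.val
        simp only [dist_def]
        omega
    · refine ⟨(x.1, (⟨x.2.val - 1, by omega⟩ : Fin L)), ?_, ?_⟩
      · show Nat.dist x.1.val x.1.val + Nat.dist x.2.val (x.2.val - 1) = 1
        simp only [dist_def]
        omega
      · show Nat.dist x.1.val y.1.val + Nat.dist (x.2.val - 1) y.2.val + 1
          = Nat.dist x.1.val y.1.val + Nat.dist x.2.val y.2.val
        simp only [dist_def]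
        omega
  · rcases Nat.lt_or_gt_of_ne h1 with hlt | hgt
    · refine ⟨((⟨x.1.val + 1, by omega⟩ : Fin L), x.2), ?_, ?_⟩
      · show Nat.dist x.1.val (x.1.val + 1) + Nat.dist x.2.val x.2.val = 1
        simp only [dist_def]
        omega
      · show Nat.dist (x.1.val + 1) y.1.val + Nat.dist x.2.val y.2.val + 1
          = Nat.dist x.1.val y.1.val + Nat.dist x.2.val y.2.val
        simp only [dist_def]
        omega
    · refine ⟨((⟨x.1.val - 1, by omega⟩ : Fin L), x.2), ?_, ?_⟩
      · show Nat.dist x.1.val (x.1.val - 1) + Nat.dist x.2.val x.2.val = 1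
        simp only [dist_def]
        omega
      · show Nat.dist (x.1.val - 1) y.1.val + Nat.dist x.2.val y.2.val + 1
          = Nat.dist x.1.val y.1.val + Nat.dist x.2.val y.2.val
        simp only [dist_def]
        omega

/-- A site of `A` within distance `n` of a site off `A` is within distance `n` of the inner end
of a boundary edge. -/
theorem path_lemma {L : ℕ} (A : Finset (Fin L × Fin L)) (n : ℕ) :
    ∀ x y : Fin L × Fin L, x ∈ A → y ∉ A → l1dist x y ≤ n →
      ∃ p ∈ bdry A, l1dist x p.1 ≤ n := by
  induction n with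
  | zero =>
    intro x y hx hy hd
    have h := eq_of_l1dist_eq_zero (Nat.le_zero.mp hd)
    subst h
    exact absurd hx hy
  | succ n ih =>
    intro x y hx hy hd
    have hxy : x ≠ y := by
      intro h
      subst h
      exact hy hx
    obtain ⟨x', h1, h2⟩ := exists_step x y hxy
    by_cases hx' : x' ∈ A
    · obtain ⟨p, hp, hpd⟩ := ih x' y hx' hy (by omega)
      refine ⟨p, hp, ?_⟩
      have h3 := l1dist_triangle x x' p.1
      omega
    · refine ⟨(x, x'), (mem_bdry A (x, x')).mpr ⟨hx, hx', h1⟩, ?_⟩
      show l1dist x x ≤ n + 1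
      rw [l1dist_self]
      exact Nat.zero_le _

/-- A ball of radius `R` of the grid has at most the square of `2 R + 1` sites. -/
theorem ball_card_le {L : ℕ} (R : ℕ) (u : Fin L × Fin L) :
    (Finset.univ.filter (fun x : Fin L × Fin L => l1dist x u ≤ R)).card ≤ (2 * R + 1) ^ 2 := by
  have h := Finset.card_le_card_of_injOn
    (s := Finset.univ.filter (fun x : Fin L × Fin L => l1dist x u ≤ R))
    (t := Finset.range (2 * R + 1) ×ˢ Finset.range (2 * R + 1))
    (fun x : Fin L × Fin L => (x.1.val + R - u.1.val, x.2.val + R - u.2.val))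
    (by
      intro x hx
      have hd : l1dist x u ≤ R := (Finset.mem_filter.mp hx).2
      rw [l1dist_def] at hd
      simp only [dist_def] at hd
      refine Finset.mem_product.mpr ⟨Finset.mem_range.mpr ?_, Finset.mem_range.mpr ?_⟩
      · show x.1.val + R - u.1.val < 2 * R + 1
        omega
      · show x.2.val + R - u.2.val < 2 * R + 1
        omega)
    (by
      intro x hx x' hx' hxx'
      have hd : l1dist x u ≤ R := (Finset.mem_filter.mp (Finset.mem_coe.mp hx)).2
      have hd' : l1dist x' u ≤ R := (Finset.mem_filter.mp (Finset.mem_coe.mp hx')).2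
      rw [l1dist_def] at hd hd'
      simp only [dist_def] at hd hd'
      have e1 : x.1.val + R - u.1.val = x'.1.val + R - u.1.val := congrArg Prod.fst hxx'
      have e2 : x.2.val + R - u.2.val = x'.2.val + R - u.2.val := congrArg Prod.snd hxx'
      exact Prod.ext (Fin.ext (by omega)) (Fin.ext (by omega)))
  rw [Finset.card_product, Finset.card_range] at h
  rw [sq]
  exact h

/-- The sites of `A` lying in a set of diameter at most `R` that leaves `A` number at most
the square of `2 R + 1` times the number of boundary edges. -/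
theorem collar_card_le (L R : ℕ) {ι : Type*} (X : ι → Finset (Fin L × Fin L))
    (hdiam : ∀ i, ∀ x ∈ X i, ∀ y ∈ X i, l1dist x y ≤ R) (A : Finset (Fin L × Fin L)) :
    (collar X A).card ≤ (2 * R + 1) ^ 2 * (bdry A).card := by
  have hsub : collar X A ⊆ (bdry A).biUnion
      (fun p => Finset.univ.filter (fun x : Fin L × Fin L => l1dist x p.1 ≤ R)) := by
    intro x hx
    obtain ⟨hxA, i, hxi, y, hyi, hyA⟩ := (mem_collar X A x).mp hx
    obtain ⟨p, hp, hpd⟩ := path_lemma A R x y hxA hyA (hdiam i x hxi y hyi)
    exact Finset.mem_biUnion.mpr ⟨p, hp, Finset.mem_filter.mpr ⟨Finset.mem_univ x, hpd⟩⟩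
  calc (collar X A).card
      ≤ ((bdry A).biUnion
          (fun p => Finset.univ.filter (fun x : Fin L × Fin L => l1dist x p.1 ≤ R))).card :=
        Finset.card_le_card hsub
    _ ≤ ∑ p ∈ bdry A,
          (Finset.univ.filter (fun x : Fin L × Fin L => l1dist x p.1 ≤ R)).card :=
        Finset.card_biUnion_le
    _ ≤ (bdry A).card • (2 * R + 1) ^ 2 :=
        Finset.sum_le_card_nsmul _ _ _ fun p _ => ball_card_le R p.1
    _ = (2 * R + 1) ^ 2 * (bdry A).card := by rw [smul_eq_mul, mul_comm]

end Vale.Agent.Lib.P356.H36
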